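import Vale.Agent.P027.Q.Vis2

/-! The law of signs, squares and residues modulo eight for the multiples of `P0`. -/

set_option linter.all false

namespace Vale.Agent.P027.Q

open Vale.Agent.P027

/-- the quartic equation, odd index -/
theorem quart_odd {c d : ℕ} (hc : 0 < c) (hd : 0 < d) {X Y : ℚ}
    (h : Y ^ 2 = X ^ 3 + 10 * X ^ 2 - 7 * X)
    (hX : X = -((c : ℚ) / d) ^ 2) :
    ∃ t : ℕ, t ^ 2 + c ^ 4 = 7 * d ^ 4 + 10 * c ^ 2 * d ^ 2 := by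
  have hr' : (c : ℚ) ≠ 0 := by positivity
  have hw' : (d : ℚ) ≠ 0 := by positivity
  have h1 : ((7 * (d : ℤ) ^ 4 + 10 * (c : ℤ) ^ 2 * (d : ℤ) ^ 2 - (c : ℤ) ^ 4 : ℤ) : ℚ) =
      (Y * d ^ 3 / c) * (Y * d ^ 3 / c) := by
    have e : (Y * d ^ 3 / c) * (Y * d ^ 3 / c) = Y ^ 2 * d ^ 6 / c ^ 2 := by
      field_simp
    rw [e, h, hX]
    push_cast
    field_simp
    ring
  have h2 : IsSquare ((7 * (d : ℤ) ^ 4 + 10 * (c : ℤ) ^ 2 * (d : ℤ) ^ 2 - (c : ℤ) ^ 4 : ℤ) : ℚ) :=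
    ⟨_, h1⟩
  rw [Rat.isSquare_intCast_iff] at h2
  obtain ⟨t, ht⟩ := h2
  refine ⟨t.natAbs, ?_⟩
  have h3 : ((t.natAbs ^ 2 + c ^ 4 : ℕ) : ℤ) = ((7 * d ^ 4 + 10 * c ^ 2 * d ^ 2 : ℕ) : ℤ) := by
    push_cast
    rw [sq_abs]
    linarith
  exact_mod_cast h3

/-- the quartic equation, even index -/
theorem quart_even {c d : ℕ} (hc : 0 < c) (hd : 0 < d) {X Y : ℚ}
    (h : Y ^ 2 = X ^ 3 + 10 * X ^ 2 - 7 * X)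
    (hX : X = ((c : ℚ) / d) ^ 2) :
    ∃ t : ℕ, t ^ 2 + 7 * d ^ 4 = c ^ 4 + 10 * c ^ 2 * d ^ 2 :=
  sq_of_point hc hd h (by rw [hX, div_pow])

lemma seven_odd {c d t : ℕ} (hcd : Nat.Coprime c d)
    (h : t ^ 2 + c ^ 4 = 7 * d ^ 4 + 10 * c ^ 2 * d ^ 2) : ¬ 7 ∣ c := by
  rintro ⟨a, rfl⟩
  have h7 : Nat.Prime 7 := by norm_num
  have ht : 7 ∣ t := by
    apply h7.dvd_of_dvd_pow (n := 2)
    have h1 : 7 ∣ t ^ 2 + (7 * a) ^ 4 := by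
      rw [h]
      exact ⟨d ^ 4 + 10 * 7 * a ^ 2 * d ^ 2, by ring⟩
    exact (Nat.dvd_add_left ⟨7 ^ 3 * a ^ 4, by ring⟩).1 h1
  obtain ⟨t', rfl⟩ := ht
  have h2 : 7 * t' ^ 2 + 7 ^ 3 * a ^ 4 = d ^ 4 + 10 * 7 * a ^ 2 * d ^ 2 := by
    have : 7 * (7 * t' ^ 2 + 7 ^ 3 * a ^ 4) = 7 * (d ^ 4 + 10 * 7 * a ^ 2 * d ^ 2) := by
      linarith
    omega
  have hd : 7 ∣ d := by
    apply h7.dvd_of_dvd_pow (n := 4)
    have h1 : 7 ∣ d ^ 4 + 10 * 7 * a ^ 2 * d ^ 2 := by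
      rw [← h2]
      exact ⟨t' ^ 2 + 7 ^ 2 * a ^ 4, by ring⟩
    exact (Nat.dvd_add_left ⟨10 * a ^ 2 * d ^ 2, by ring⟩).1 h1
  exact Nat.Prime.not_coprime_iff_dvd.mpr ⟨7, h7, Dvd.intro _ rfl, hd⟩ hcd

lemma seven_even {c d t : ℕ} (hcd : Nat.Coprime c d)
    (h : t ^ 2 + 7 * d ^ 4 = c ^ 4 + 10 * c ^ 2 * d ^ 2) : ¬ 7 ∣ c := by
  rintro ⟨a, rfl⟩
  have h7 : Nat.Prime 7 := by norm_num
  have ht : 7 ∣ t := by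
    apply h7.dvd_of_dvd_pow (n := 2)
    have h1 : 7 ∣ t ^ 2 + 7 * d ^ 4 := by
      rw [h]
      exact ⟨7 ^ 3 * a ^ 4 + 10 * 7 * a ^ 2 * d ^ 2, by ring⟩
    exact (Nat.dvd_add_left ⟨d ^ 4, by ring⟩).1 h1
  obtain ⟨t', rfl⟩ := ht
  have h2 : 7 * t' ^ 2 + d ^ 4 = 7 ^ 3 * a ^ 4 + 10 * 7 * a ^ 2 * d ^ 2 := by
    have : 7 * (7 * t' ^ 2 + d ^ 4) = 7 * (7 ^ 3 * a ^ 4 + 10 * 7 * a ^ 2 * d ^ 2) := by
      linarith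
    omega
  have hd : 7 ∣ d := by
    apply h7.dvd_of_dvd_pow (n := 4)
    have h1 : 7 ∣ 7 * t' ^ 2 + d ^ 4 := by
      rw [h2]
      exact ⟨7 ^ 2 * a ^ 4 + 10 * a ^ 2 * d ^ 2, by ring⟩
    exact (Nat.dvd_add_right ⟨t' ^ 2, by ring⟩).1 h1
  exact Nat.Prime.not_coprime_iff_dvd.mpr ⟨7, h7, Dvd.intro _ rfl, hd⟩ hcd

/-- doubling -/
lemma xx_double {m : ℕ} (hm : m ≠ 0) :
    xx (2 * m) = ((xx m) ^ 2 + 7) ^ 2 / (4 * ((xx m) ^ 3 + 10 * (xx m) ^ 2 - 7 * (xx m))) := by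
  have h1 := hasX_two_smul (hasX_xx hm) (xx_ne_zero hm)
  have e1 : (m : ℤ) • P0 + (m : ℤ) • P0 = ((2 * m : ℕ) : ℤ) • P0 := by
    rw [← add_zsmul]
    congr 1
    push_cast
    ring
  rw [e1] at h1
  exact (hasX_xx (mul_ne_zero two_ne_zero hm)).unique h1

/-- neighbours: the formula for the sum of indices -/
lemma xx_add {e o : ℕ} (he : e ≠ 0) (ho : o ≠ 0) (hd : e = o + 1 ∨ o = e + 1)
    (hne : xx e ≠ xx o) :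
    (xx (e + o) + -1) * (xx e - xx o) ^ 2 =
        2 * ((xx e * xx o - 7) * (xx e + xx o) + 20 * (xx e * xx o)) ∧
      xx (e + o) * -1 * (xx e - xx o) ^ 2 = (xx e * xx o + 7) ^ 2 := by
  obtain ⟨s, d, hs, hd', h1, h2⟩ := hasX_add_sub (hasX_xx he) (hasX_xx ho) hne
  have e1 : (e : ℤ) • P0 + (o : ℤ) • P0 = ((e + o : ℕ) : ℤ) • P0 := by
    rw [← add_zsmul]
    congr 1
  rw [e1] at hs
  have es : s = xx (e + o) := hs.unique (hasX_xx (by omega))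
  have ed : d = -1 := by
    rcases hd with h | h
    · have e2 : (e : ℤ) • P0 - (o : ℤ) • P0 = P0 := by
        rw [sub_eq_add_neg, ← sub_zsmul, h]
        push_cast
        rw [add_sub_cancel_left, one_zsmul]
      rw [e2] at hd'
      exact hd'.unique hasX_P0
    · have e2 : (e : ℤ) • P0 - (o : ℤ) • P0 = -P0 := by
        rw [sub_eq_add_neg, ← sub_zsmul, h]
        push_cast
        rw [sub_add_cancel_left, neg_zsmul, one_zsmul]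
      rw [e2] at hd'
      exact hd'.unique hasX_P0.neg
  rw [es, ed] at h1 h2
  exact ⟨h1, h2⟩

/-- neighbours in integers -/
lemma xx_add_int {e o : ℕ} (he : e ≠ 0) (ho : o ≠ 0) (hd : e = o + 1 ∨ o = e + 1)
    {a b c d : ℕ} (ha : 0 < a) (hb : 0 < b) (hc : 0 < c) (hd0 : 0 < d)
    (hxe : xx e = ((a : ℚ) / b) ^ 2) (hxo : xx o = -((c : ℚ) / d) ^ 2) :
    xx (e + o) * ((a : ℚ) ^ 2 * d ^ 2 + b ^ 2 * c ^ 2) ^ 2 =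
        -(7 * (b : ℚ) ^ 2 * d ^ 2 - a ^ 2 * c ^ 2) ^ 2 ∧
      ((a : ℤ) ^ 2 * d ^ 2 + b ^ 2 * c ^ 2) ^ 2 + (7 * (b : ℤ) ^ 2 * d ^ 2 - a ^ 2 * c ^ 2) ^ 2 =
        2 * (((a : ℤ) ^ 2 * c ^ 2 + 7 * b ^ 2 * d ^ 2) * (a ^ 2 * d ^ 2 - b ^ 2 * c ^ 2) +
          20 * (a ^ 2 * b ^ 2 * c ^ 2 * d ^ 2)) := by
  have ha' : (0 : ℚ) < a := by exact_mod_cast ha
  have hb' : (0 : ℚ) < b := by exact_mod_cast hb
  have hc' : (0 : ℚ) < c := by exact_mod_cast hc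
  have hd' : (0 : ℚ) < d := by exact_mod_cast hd0
  have hne : xx e ≠ xx o := by
    rw [hxe, hxo]
    have h1 : 0 < ((a : ℚ) / b) ^ 2 := by positivity
    have h2 : 0 < ((c : ℚ) / d) ^ 2 := by positivity
    intro h
    linarith
  obtain ⟨h1, h2⟩ := xx_add he ho hd hne
  rw [hxe, hxo] at h1 h2
  set s := xx (e + o) with hs
  have hN : ((a : ℚ) / b) ^ 2 - -((c : ℚ) / d) ^ 2 =
      (a ^ 2 * d ^ 2 + b ^ 2 * c ^ 2) / (b ^ 2 * d ^ 2) := by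
    field_simp
    ring
  have hM : ((a : ℚ) / b) ^ 2 * -((c : ℚ) / d) ^ 2 + 7 =
      (7 * b ^ 2 * d ^ 2 - a ^ 2 * c ^ 2) / (b ^ 2 * d ^ 2) := by
    field_simp
    ring
  have hT : (((a : ℚ) / b) ^ 2 * -((c : ℚ) / d) ^ 2 - 7) * (((a : ℚ) / b) ^ 2 + -((c : ℚ) / d) ^ 2) +
      20 * (((a : ℚ) / b) ^ 2 * -((c : ℚ) / d) ^ 2) =
      -((a ^ 2 * c ^ 2 + 7 * b ^ 2 * d ^ 2) * (a ^ 2 * d ^ 2 - b ^ 2 * c ^ 2) +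
        20 * (a ^ 2 * b ^ 2 * c ^ 2 * d ^ 2)) / (b ^ 2 * d ^ 2) ^ 2 := by
    field_simp
    ring
  rw [hN, hT] at h1
  rw [hN, hM] at h2
  have hbd : ((b : ℚ) ^ 2 * d ^ 2) ^ 2 ≠ 0 := by positivity
  rw [div_pow, div_pow] at h2
  rw [div_pow] at h1
  have h2' : s * ((a : ℚ) ^ 2 * d ^ 2 + b ^ 2 * c ^ 2) ^ 2 =
        -(7 * (b : ℚ) ^ 2 * d ^ 2 - a ^ 2 * c ^ 2) ^ 2 := by
    have := h2
    rw [← mul_div_assoc, div_left_inj' hbd] at this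
    linear_combination -this
  refine ⟨h2', ?_⟩
  have h1' : (s + -1) * ((a : ℚ) ^ 2 * d ^ 2 + b ^ 2 * c ^ 2) ^ 2 =
      2 * -((a ^ 2 * c ^ 2 + 7 * b ^ 2 * d ^ 2) * (a ^ 2 * d ^ 2 - b ^ 2 * c ^ 2) +
        20 * (a ^ 2 * b ^ 2 * c ^ 2 * d ^ 2)) := by
    have := h1
    rw [← mul_div_assoc, ← mul_div_assoc, div_left_inj' hbd] at this
    exact this
  have h3 : ((a : ℚ) ^ 2 * d ^ 2 + b ^ 2 * c ^ 2) ^ 2 + (7 * (b : ℚ) ^ 2 * d ^ 2 - a ^ 2 * c ^ 2) ^ 2 =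
        2 * (((a : ℚ) ^ 2 * c ^ 2 + 7 * b ^ 2 * d ^ 2) * (a ^ 2 * d ^ 2 - b ^ 2 * c ^ 2) +
          20 * (a ^ 2 * b ^ 2 * c ^ 2 * d ^ 2)) := by
    linear_combination h2' - h1'
  exact_mod_cast h3

/-- no odd prime divides both numbers -/
lemma no_odd_prime {a b c d : ℕ} (hab : Nat.Coprime a b) (hcd : Nat.Coprime c d)
    (h7a : ¬ 7 ∣ a) (h7c : ¬ 7 ∣ c)
    (hT : ((a : ℤ) ^ 2 * d ^ 2 + b ^ 2 * c ^ 2) ^ 2 + (7 * (b : ℤ) ^ 2 * d ^ 2 - a ^ 2 * c ^ 2) ^ 2 =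
        2 * (((a : ℤ) ^ 2 * c ^ 2 + 7 * b ^ 2 * d ^ 2) * (a ^ 2 * d ^ 2 - b ^ 2 * c ^ 2) +
          20 * (a ^ 2 * b ^ 2 * c ^ 2 * d ^ 2)))
    {p : ℕ} (hp : p.Prime) (hp2 : p ≠ 2) (hN : (p : ℤ) ∣ (a : ℤ) ^ 2 * d ^ 2 + b ^ 2 * c ^ 2)
    (hM : (p : ℤ) ∣ 7 * (b : ℤ) ^ 2 * d ^ 2 - a ^ 2 * c ^ 2) : False := by
  have hpi : Prime (p : ℤ) := Nat.prime_iff_prime_int.1 hp
  have cop : ∀ {x y : ℕ}, Nat.Coprime x y → (p : ℤ) ∣ x → ¬ (p : ℤ) ∣ y := by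
    intro x y h h1 h2
    exact Nat.Prime.not_coprime_iff_dvd.mpr
      ⟨p, hp, Int.natCast_dvd_natCast.1 h1, Int.natCast_dvd_natCast.1 h2⟩ h
  have hb : ¬ (p : ℤ) ∣ b := by
    intro h
    have ha : ¬ (p : ℤ) ∣ a := fun h1 => cop hab h1 h
    have h1 : (p : ℤ) ∣ (a : ℤ) ^ 2 * d ^ 2 := by
      refine (dvd_add_left (c := (b : ℤ) ^ 2 * c ^ 2) ?_).1 hN
      exact ((dvd_pow h two_ne_zero)).mul_right _
    have h2 : (p : ℤ) ∣ d := by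
      rcases hpi.dvd_or_dvd h1 with h3 | h3
      · exact absurd (hpi.dvd_of_dvd_pow h3) ha
      · exact hpi.dvd_of_dvd_pow h3
    have hc : ¬ (p : ℤ) ∣ c := fun h1 => cop hcd h1 h2
    have h3 : (p : ℤ) ∣ (a : ℤ) ^ 2 * c ^ 2 := by
      have h4 : (p : ℤ) ∣ 7 * (b : ℤ) ^ 2 * d ^ 2 := by
        exact (dvd_pow h2 two_ne_zero).mul_left _
      have := dvd_sub h4 hM
      rwa [sub_sub_cancel] at this
    rcases hpi.dvd_or_dvd h3 with h4 | h4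
    · exact ha (hpi.dvd_of_dvd_pow h4)
    · exact hc (hpi.dvd_of_dvd_pow h4)
  have hd : ¬ (p : ℤ) ∣ d := by
    intro h
    have hc : ¬ (p : ℤ) ∣ c := fun h1 => cop hcd h1 h
    have h1 : (p : ℤ) ∣ (b : ℤ) ^ 2 * c ^ 2 := by
      refine (dvd_add_right (b := (a : ℤ) ^ 2 * d ^ 2) ?_).1 hN
      exact ((dvd_pow h two_ne_zero)).mul_left _
    rcases hpi.dvd_or_dvd h1 with h3 | h3
    · exact hb (hpi.dvd_of_dvd_pow h3)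
    · exact hc (hpi.dvd_of_dvd_pow h3)
  have hp7 : p ≠ 7 := by
    rintro rfl
    have h3 : ((7 : ℕ) : ℤ) ∣ (a : ℤ) ^ 2 * c ^ 2 := by
      have h4 : ((7 : ℕ) : ℤ) ∣ 7 * (b : ℤ) ^ 2 * d ^ 2 := ⟨(b : ℤ) ^ 2 * d ^ 2, by push_cast; ring⟩
      have := dvd_sub h4 hM
      rwa [sub_sub_cancel] at this
    rcases hpi.dvd_or_dvd h3 with h4 | h4
    · exact h7a (Int.natCast_dvd_natCast.1 (hpi.dvd_of_dvd_pow h4))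
    · exact h7c (Int.natCast_dvd_natCast.1 (hpi.dvd_of_dvd_pow h4))
  have h2n : ¬ (p : ℤ) ∣ 2 := by
    intro h
    have : p ∣ 2 := by exact_mod_cast h
    exact hp2 ((Nat.prime_dvd_prime_iff_eq hp Nat.prime_two).1 this)
  have h7n : ¬ (p : ℤ) ∣ 7 := by
    intro h
    have : p ∣ 7 := by exact_mod_cast h
    exact hp7 ((Nat.prime_dvd_prime_iff_eq hp (by norm_num)).1 this)
  -- the third relation
  set N : ℤ := (a : ℤ) ^ 2 * d ^ 2 + b ^ 2 * c ^ 2 with hNdef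
  set M : ℤ := 7 * (b : ℤ) ^ 2 * d ^ 2 - a ^ 2 * c ^ 2 with hMdef
  have hT2 : (p : ℤ) ∣ ((a : ℤ) ^ 2 * c ^ 2 + 7 * b ^ 2 * d ^ 2) * (a ^ 2 * d ^ 2 - b ^ 2 * c ^ 2) +
          20 * (a ^ 2 * b ^ 2 * c ^ 2 * d ^ 2) := by
    have h1 : (p : ℤ) ∣ N ^ 2 + M ^ 2 :=
      dvd_add (dvd_pow hN two_ne_zero) (dvd_pow hM two_ne_zero)
    rw [hT] at h1
    exact (hpi.dvd_or_dvd h1).resolve_left h2n
  have h5 : (p : ℤ) ∣ 2 * (2 * (7 * ((b : ℤ) ^ 2 * ((d : ℤ) ^ 2 * ((d : ℤ) ^ 2 *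
      ((a : ℤ) ^ 2 + 5 * (b : ℤ) ^ 2)))))) := by
    have e : 2 * (2 * (7 * ((b : ℤ) ^ 2 * ((d : ℤ) ^ 2 * ((d : ℤ) ^ 2 *
        ((a : ℤ) ^ 2 + 5 * (b : ℤ) ^ 2)))))) =
        (((a : ℤ) ^ 2 * c ^ 2 + 7 * b ^ 2 * d ^ 2) * (a ^ 2 * d ^ 2 - b ^ 2 * c ^ 2) +
          20 * (a ^ 2 * b ^ 2 * c ^ 2 * d ^ 2)) +
        (N * ((a : ℤ) ^ 2 * c ^ 2 + 7 * b ^ 2 * d ^ 2) +
        M * (2 * (a : ℤ) ^ 2 * d ^ 2 + 20 * b ^ 2 * d ^ 2)) := by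
      rw [hNdef, hMdef]; ring
    rw [e]
    exact dvd_add hT2 (dvd_add (hN.mul_right _) (hM.mul_right _))
  have h6 : (p : ℤ) ∣ (a : ℤ) ^ 2 + 5 * (b : ℤ) ^ 2 := by
    have h := (hpi.dvd_or_dvd h5).resolve_left h2n
    have h := (hpi.dvd_or_dvd h).resolve_left h2n
    have h := (hpi.dvd_or_dvd h).resolve_left h7n
    have h := (hpi.dvd_or_dvd h).resolve_left (fun h => hb (hpi.dvd_of_dvd_pow h))
    have h := (hpi.dvd_or_dvd h).resolve_left (fun h => hd (hpi.dvd_of_dvd_pow h))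
    exact (hpi.dvd_or_dvd h).resolve_left (fun h => hd (hpi.dvd_of_dvd_pow h))
  have h8 : (p : ℤ) ∣ (d : ℤ) ^ 2 * (7 * (b : ℤ) ^ 4 + (a : ℤ) ^ 4) := by
    have e : (d : ℤ) ^ 2 * (7 * (b : ℤ) ^ 4 + (a : ℤ) ^ 4) = M * (b : ℤ) ^ 2 + N * (a : ℤ) ^ 2 := by
      rw [hNdef, hMdef]; ring
    rw [e]
    exact dvd_add (hM.mul_right _) (hN.mul_right _)
  have h9 := (hpi.dvd_or_dvd h8).resolve_left (fun h => hd (hpi.dvd_of_dvd_pow h))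
  have h10 : (p : ℤ) ∣ 2 ^ 5 * (b : ℤ) ^ 4 := by
    have e : 2 ^ 5 * (b : ℤ) ^ 4 = (7 * (b : ℤ) ^ 4 + (a : ℤ) ^ 4) -
        ((a : ℤ) ^ 2 + 5 * (b : ℤ) ^ 2) * ((a : ℤ) ^ 2 - 5 * (b : ℤ) ^ 2) := by ring
    rw [e]
    exact dvd_sub h9 (h6.mul_right _)
  rcases hpi.dvd_or_dvd h10 with h | h
  · exact h2n (hpi.dvd_of_dvd_pow h)
  · exact hb (hpi.dvd_of_dvd_pow h)

end Vale.Agent.P027.Q
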