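import Vale.Agent.P027.H790.Law

/-! The law of signs, squares and residues modulo eight: the induction. -/

set_option linter.all false

namespace Vale.Agent.P027.Q

open Vale.Agent.P027

/-- odd indices -/
def FrmO (n c d : ℕ) : Prop := c % 2 = 1 ∧ d % 2 = 1 ∧ Nat.Coprime c d ∧
  xx n = -((c : ℚ) / d) ^ 2 ∧
  ((d % 8 = 1 ∧ c ^ 2 % 16 = 1 ∧ (n % 16 = 1 ∨ n % 16 = 15)) ∨
    (d % 8 = 1 ∧ c ^ 2 % 16 = 9 ∧ (n % 16 = 3 ∨ n % 16 = 13)) ∨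
    (d % 8 = 5 ∧ c ^ 2 % 16 = 1 ∧ (n % 16 = 5 ∨ n % 16 = 11)) ∨
    (d % 8 = 5 ∧ c ^ 2 % 16 = 9 ∧ (n % 16 = 7 ∨ n % 16 = 9)))

/-- even indices -/
def FrmE (n c d : ℕ) : Prop := 0 < c ∧ 0 < d ∧ Nat.Coprime c d ∧ xx n = ((c : ℚ) / d) ^ 2 ∧
  ((n % 4 = 2 ∧ c % 2 = 1 ∧ d % 2 = 1 ∧ c ^ 2 % 16 = d ^ 2 % 16) ∨
    (n % 8 = 4 ∧ c % 4 = 2 ∧ d % 2 = 1) ∨ (n % 8 = 0 ∧ c % 2 = 1 ∧ d % 4 = 0))

lemma red {M N : ℕ} (hM : 0 < M) (hN : 0 < N) : ∃ c d g : ℕ, 0 < c ∧ 0 < d ∧ 0 < g ∧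
    Nat.Coprime c d ∧ M = c * g ∧ N = d * g ∧ (M : ℚ) / N = (c : ℚ) / d := by
  obtain ⟨g, c, d, hg, hco, h1, h2⟩ := Nat.exists_coprime' (m := M) (n := N)
    (Nat.gcd_pos_of_pos_left _ hM)
  have hc : 0 < c := Nat.pos_of_ne_zero (by rintro rfl; omega)
  have hd : 0 < d := Nat.pos_of_ne_zero (by rintro rfl; omega)
  refine ⟨c, d, g, hc, hd, hg, hco, h1, h2, ?_⟩
  have hg' : (g : ℚ) ≠ 0 := by positivity
  have hd' : (d : ℚ) ≠ 0 := by positivity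
  rw [h1, h2]
  push_cast
  field_simp

lemma odd_sq_nat {c : ℕ} (h : c % 2 = 1) : ∃ i : ℕ, c ^ 2 = 8 * i + 1 := by
  obtain ⟨a, ha⟩ := sq_odd_nat h
  have ha0 : 0 ≤ a := by
    by_contra hcon
    have h1 : (0 : ℤ) < (c : ℤ) ^ 2 := by
      have : 0 < c := by omega
      positivity
    omega
  obtain ⟨b, rfl⟩ := Int.eq_ofNat_of_zero_le ha0
  exact ⟨b, by exact_mod_cast ha⟩

lemma odd_of_mul_odd {c g : ℕ} (h : (c * g) % 2 = 1) : c % 2 = 1 ∧ g % 2 = 1 := by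
  have := Nat.odd_mul.1 (Nat.odd_iff.2 h)
  exact ⟨Nat.odd_iff.1 this.1, Nat.odd_iff.1 this.2⟩

lemma mul_odd_odd {c g : ℕ} (hc : c % 2 = 1) (hg : g % 2 = 1) : (c * g) % 2 = 1 :=
  Nat.odd_iff.1 ((Nat.odd_iff.2 hc).mul (Nat.odd_iff.2 hg))

lemma pow_odd_odd {c : ℕ} (k : ℕ) (hc : c % 2 = 1) : (c ^ k) % 2 = 1 :=
  Nat.odd_iff.1 ((Nat.odd_iff.2 hc).pow)

lemma poly16 (i j : ℤ) : (16 : ℤ) ∣ (1 + 2 * i + 8 * i ^ 2 + 14 * j + 56 * j ^ 2) ^ 2 -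
    (8 * i + 1) * (8 * j + 1) * (1 + 4 * i + 12 * j + 28 * j ^ 2 + 40 * (i * j) - 4 * i ^ 2) := by
  apply Int.dvd_of_emod_eq_zero
  obtain ⟨i', h | h⟩ := Int.even_or_odd' i <;> obtain ⟨j', h' | h'⟩ := Int.even_or_odd' j <;>
    (rw [h, h']; ring_nf; omega)

lemma cancel16 {a b g : ℕ} (hg : g % 2 = 1) (h : (16 : ℤ) ∣ ((a * g : ℕ) : ℤ) ^ 2 - ((b * g : ℕ) : ℤ) ^ 2) :
    a ^ 2 % 16 = b ^ 2 % 16 := by
  have hc : IsCoprime (16 : ℤ) ((g : ℤ) ^ 2) := by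
    apply IsCoprime.pow_right
    have : IsCoprime ((2 : ℤ) ^ 4) (g : ℤ) := by
      apply IsCoprime.pow_left
      rw [Int.isCoprime_iff_gcd_eq_one, Int.gcd_comm]
      have : Nat.Coprime g 2 := (Nat.odd_iff.2 hg).coprime_two_right
      exact this
    exact_mod_cast this
  have e : ((a * g : ℕ) : ℤ) ^ 2 - ((b * g : ℕ) : ℤ) ^ 2 = ((a : ℤ) ^ 2 - (b : ℤ) ^ 2) * (g : ℤ) ^ 2 := by
    push_cast; ring
  rw [e] at h
  have h1 := hc.dvd_of_dvd_mul_right h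
  have h2 : ((a ^ 2 : ℕ) : ℤ) % 16 = ((b ^ 2 : ℕ) : ℤ) % 16 := by
    push_cast
    exact (Int.emod_emod_of_dvd _ (dvd_refl _)).symm.trans (by
      have := Int.emod_emod_of_dvd ((a : ℤ) ^ 2) (dvd_refl (16 : ℤ))
      omega)
  omega

/-- the doubling formula in terms of the quartic -/
lemma dbl_formula {m c d t : ℕ} (hm : m ≠ 0) (hc : 0 < c) (hd : 0 < d) (ht : 0 < t) {X : ℚ}
    (hX : xx m = X) (h1 : X ^ 2 = (c : ℚ) ^ 4 / d ^ 4)
    (h2 : X ^ 3 + 10 * X ^ 2 - 7 * X = (c : ℚ) ^ 2 * t ^ 2 / d ^ 6) :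
    xx (2 * m) = (((c ^ 4 + 7 * d ^ 4 : ℕ) : ℚ) / ((2 * c * d * t : ℕ) : ℚ)) ^ 2 := by
  have hc' : (0 : ℚ) < c := by exact_mod_cast hc
  have hd' : (0 : ℚ) < d := by exact_mod_cast hd
  have ht' : (0 : ℚ) < t := by exact_mod_cast ht
  rw [xx_double hm, hX, h2, h1]
  push_cast
  field_simp
  ring

/-- doubling an odd index -/
lemma dbl_odd {m c d : ℕ} (hm : m % 2 = 1) (h : FrmO m c d) : ∃ c' d', FrmE (2 * m) c' d' := by
  obtain ⟨hc, hd, hco, hx, -⟩ := h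
  have hm0 : m ≠ 0 := by omega
  have hc0 : 0 < c := by omega
  have hd0 : 0 < d := by omega
  have hcq : (0 : ℚ) < c := by exact_mod_cast hc0
  have hdq : (0 : ℚ) < d := by exact_mod_cast hd0
  obtain ⟨Y, hY, -⟩ := hasX_xx hm0
  obtain ⟨t, ht⟩ := quart_odd hc0 hd0 hY hx
  obtain ⟨i, hi⟩ := odd_sq_nat hc
  obtain ⟨j, hj⟩ := odd_sq_nat hd
  have hc4 : c ^ 4 = (8 * i + 1) ^ 2 := by rw [← hi]; ring
  have hd4 : d ^ 4 = (8 * j + 1) ^ 2 := by rw [← hj]; ring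
  have htz : (t : ℤ) ^ 2 = 16 * (1 + 4 * i + 12 * j + 28 * j ^ 2 + 40 * (i * j) - 4 * i ^ 2) := by
    have h1 : (t : ℤ) ^ 2 + (c : ℤ) ^ 4 = 7 * (d : ℤ) ^ 4 + 10 * (c : ℤ) ^ 2 * (d : ℤ) ^ 2 := by
      exact_mod_cast ht
    have h2 : (c : ℤ) ^ 4 = (8 * i + 1) ^ 2 := by exact_mod_cast hc4
    have h3 : (d : ℤ) ^ 4 = (8 * j + 1) ^ 2 := by exact_mod_cast hd4
    have h4 : (c : ℤ) ^ 2 = 8 * i + 1 := by exact_mod_cast hi
    have h5 : (d : ℤ) ^ 2 = 8 * j + 1 := by exact_mod_cast hj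
    rw [h2, h3, h4, h5] at h1
    linear_combination h1
  obtain ⟨w, hw⟩ : ∃ w : ℤ, w = 1 + 4 * i + 12 * j + 28 * j ^ 2 + 40 * (i * j) - 4 * i ^ 2 :=
    ⟨_, rfl⟩
  rw [← hw] at htz
  obtain ⟨t', ht'⟩ : ∃ t' : ℕ, t = 4 * t' := by
    have h1 : t ^ 2 % 16 = 0 := by
      have : ((t ^ 2 : ℕ) : ℤ) = 16 * w := by push_cast; exact htz
      omega
    have h2 : t % 4 = 0 := by
      have h3 : t % 4 = 0 ∨ t % 4 = 1 ∨ t % 4 = 2 ∨ t % 4 = 3 := by omega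
      rcases h3 with h3 | h3 | h3 | h3
      · exact h3
      · exfalso
        obtain ⟨q, hq⟩ : ∃ q, t = 4 * q + 1 := ⟨t / 4, by omega⟩
        have : t ^ 2 = 4 * (4 * q ^ 2 + 2 * q) + 1 := by rw [hq]; ring
        omega
      · exfalso
        obtain ⟨q, hq⟩ : ∃ q, t = 4 * q + 2 := ⟨t / 4, by omega⟩
        have : t ^ 2 = 16 * (q ^ 2 + q) + 4 := by rw [hq]; ring
        omega
      · exfalso
        obtain ⟨q, hq⟩ : ∃ q, t = 4 * q + 3 := ⟨t / 4, by omega⟩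
        have : t ^ 2 = 8 * (2 * q ^ 2 + 3 * q + 1) + 1 := by rw [hq]; ring
        omega
    exact ⟨t / 4, by omega⟩
  have hw2 : (t' : ℤ) ^ 2 = w := by
    rw [ht'] at htz
    push_cast at htz
    linarith
  have ht'odd : t' % 2 = 1 := by
    by_contra hcon
    obtain ⟨q, hq⟩ : ∃ q, t' = 2 * q := ⟨t' / 2, by omega⟩
    have h1 : (t' : ℤ) ^ 2 = 4 * (q : ℤ) ^ 2 := by rw [hq]; push_cast; ring
    have h2 : w = 2 * (2 * i + 6 * j + 14 * j ^ 2 + 20 * (i * j) - 2 * i ^ 2) + 1 := by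
      rw [hw]; ring
    omega
  have ht0 : 0 < t := by omega
  -- the numerator
  obtain ⟨u, hu⟩ : ∃ u : ℕ, u = 1 + 2 * i + 8 * i ^ 2 + 14 * j + 56 * j ^ 2 := ⟨_, rfl⟩
  have hu8 : c ^ 4 + 7 * d ^ 4 = 8 * u := by rw [hc4, hd4, hu]; ring
  have huodd : u % 2 = 1 := by omega
  have hform := dbl_formula (t := t) hm0 hc0 hd0 ht0 hx
    (by field_simp) (by
      have h1 : (t : ℚ) ^ 2 + (c : ℚ) ^ 4 = 7 * (d : ℚ) ^ 4 + 10 * (c : ℚ) ^ 2 * (d : ℚ) ^ 2 := by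
        exact_mod_cast ht
      have h2 : (t : ℚ) ^ 2 = 7 * (d : ℚ) ^ 4 + 10 * (c : ℚ) ^ 2 * (d : ℚ) ^ 2 - (c : ℚ) ^ 4 := by
        linarith
      rw [h2]
      field_simp
      ring)
  have hN : (c * d * t') % 2 = 1 := mul_odd_odd (mul_odd_odd hc hd) ht'odd
  obtain ⟨c', d', g, hc', hd', hg, hco', hM', hN', hq⟩ := red (M := u) (N := c * d * t')
    (by omega) (by omega)
  have hodd1 := odd_of_mul_odd (c := c') (g := g) (by rw [← hM']; exact huodd)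
  have hodd2 := odd_of_mul_odd (c := d') (g := g) (by rw [← hN']; exact hN)
  refine ⟨c', d', hc', hd', hco', ?_, Or.inl ⟨by omega, hodd1.1, hodd2.1, ?_⟩⟩
  · rw [hform, ← hq, hu8, ht']
    congr 1
    have hcq : (c : ℚ) ≠ 0 := by positivity
    have hdq : (d : ℚ) ≠ 0 := by positivity
    have htq : (t' : ℚ) ≠ 0 := by
      have : t' ≠ 0 := by omega
      exact_mod_cast this
    push_cast
    field_simp
    ring
  · -- the congruence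
    apply cancel16 hodd1.2
    rw [← hM', ← hN']
    have e : ((c * d * t' : ℕ) : ℤ) ^ 2 = (8 * i + 1) * (8 * j + 1) * w := by
      rw [← hw2]
      have h4 : (c : ℤ) ^ 2 = 8 * i + 1 := by exact_mod_cast hi
      have h5 : (d : ℤ) ^ 2 = 8 * j + 1 := by exact_mod_cast hj
      rw [← h4, ← h5]
      push_cast
      ring
    rw [e, hw, hu]
    push_cast
    exact poly16 i j

/-- doubling an even index -/
lemma dbl_even {m c d : ℕ} (hm : m ≠ 0) (h : FrmE m c d) : ∃ c' d', FrmE (2 * m) c' d' := by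
  obtain ⟨hc0, hd0, hco, hx, hcase⟩ := h
  have hcq : (0 : ℚ) < c := by exact_mod_cast hc0
  have hdq : (0 : ℚ) < d := by exact_mod_cast hd0
  obtain ⟨Y, hY, -⟩ := hasX_xx hm
  obtain ⟨t, ht⟩ := quart_even hc0 hd0 hY hx
  have hform : 0 < t → xx (2 * m) =
      (((c ^ 4 + 7 * d ^ 4 : ℕ) : ℚ) / ((2 * c * d * t : ℕ) : ℚ)) ^ 2 := fun ht0 =>
    dbl_formula (t := t) hm hc0 hd0 ht0 hx (by field_simp) (by
      have h1 : (t : ℚ) ^ 2 + 7 * (d : ℚ) ^ 4 = (c : ℚ) ^ 4 + 10 * (c : ℚ) ^ 2 * (d : ℚ) ^ 2 := by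
        exact_mod_cast ht
      have h2 : (t : ℚ) ^ 2 = (c : ℚ) ^ 4 + 10 * (c : ℚ) ^ 2 * (d : ℚ) ^ 2 - 7 * (d : ℚ) ^ 4 := by
        linarith
      rw [h2]
      field_simp)
  rcases hcase with ⟨hm4, hc, hd, -⟩ | hcase
  · -- both odd
    obtain ⟨i, hi⟩ := odd_sq_nat hc
    obtain ⟨j, hj⟩ := odd_sq_nat hd
    have hc4 : c ^ 4 = (8 * i + 1) ^ 2 := by rw [← hi]; ring
    have hd4 : d ^ 4 = (8 * j + 1) ^ 2 := by rw [← hj]; ring
    have htz : (t : ℤ) ^ 2 = 4 * (2 * (12 * i - 4 * j + 8 * i ^ 2 + 80 * (i * j) - 56 * j ^ 2) + 1) := by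
      have h1 : (t : ℤ) ^ 2 + 7 * (d : ℤ) ^ 4 = (c : ℤ) ^ 4 + 10 * (c : ℤ) ^ 2 * (d : ℤ) ^ 2 := by
        exact_mod_cast ht
      have h2 : (c : ℤ) ^ 4 = (8 * i + 1) ^ 2 := by exact_mod_cast hc4
      have h3 : (d : ℤ) ^ 4 = (8 * j + 1) ^ 2 := by exact_mod_cast hd4
      have h4 : (c : ℤ) ^ 2 = 8 * i + 1 := by exact_mod_cast hi
      have h5 : (d : ℤ) ^ 2 = 8 * j + 1 := by exact_mod_cast hj
      rw [h2, h3, h4, h5] at h1
      linear_combination h1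
    obtain ⟨w, hw⟩ : ∃ w : ℤ, w = 12 * i - 4 * j + 8 * i ^ 2 + 80 * (i * j) - 56 * j ^ 2 := ⟨_, rfl⟩
    rw [← hw] at htz
    obtain ⟨t', ht'⟩ : ∃ t' : ℕ, t = 2 * t' := by
      rcases Nat.even_or_odd' t with ⟨q, hq | hq⟩
      · exact ⟨q, hq⟩
      · exfalso
        have : (t : ℤ) ^ 2 = 2 * (2 * (q : ℤ) ^ 2 + 2 * q) + 1 := by rw [hq]; push_cast; ring
        omega
    have hw2 : (t' : ℤ) ^ 2 = 2 * w + 1 := by
      rw [ht'] at htz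
      push_cast at htz
      linarith
    have ht'odd : t' % 2 = 1 := by
      by_contra hcon
      obtain ⟨q, hq⟩ : ∃ q, t' = 2 * q := ⟨t' / 2, by omega⟩
      have h1 : (t' : ℤ) ^ 2 = 4 * (q : ℤ) ^ 2 := by rw [hq]; push_cast; ring
      omega
    have ht0 : 0 < t := by omega
    obtain ⟨u, hu⟩ : ∃ u : ℕ, u = 1 + 2 * i + 8 * i ^ 2 + 14 * j + 56 * j ^ 2 := ⟨_, rfl⟩
    have hu8 : c ^ 4 + 7 * d ^ 4 = 8 * u := by rw [hc4, hd4, hu]; ring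
    have huodd : u % 2 = 1 := by omega
    have hN : (c * d * t') % 2 = 1 := mul_odd_odd (mul_odd_odd hc hd) ht'odd
    obtain ⟨c', d', g, hc', hd', hg, hco', hM', hN', hq⟩ := red (M := u) (N := c * d * t')
      (by omega) (by omega)
    have hodd1 := odd_of_mul_odd (c := c') (g := g) (by rw [← hM']; exact huodd)
    have hodd2 := odd_of_mul_odd (c := d') (g := g) (by rw [← hN']; exact hN)
    refine ⟨2 * c', d', by omega, hd', ?_, ?_, Or.inr (Or.inl ⟨by omega, by omega, hodd2.1⟩)⟩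
    · exact Nat.Coprime.mul_left ((Nat.odd_iff.2 hodd2.1).coprime_two_left) hco'
    · rw [hform ht0]
      congr 1
      have e : ((2 * c' : ℕ) : ℚ) / d' = 2 * ((c' : ℚ) / d') := by push_cast; ring
      rw [e, ← hq, hu8, ht']
      have hcq : (c : ℚ) ≠ 0 := by positivity
      have hdq : (d : ℚ) ≠ 0 := by positivity
      have htq : (t' : ℚ) ≠ 0 := by
        have : t' ≠ 0 := by omega
        exact_mod_cast this
      push_cast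
      field_simp
      ring
  · -- one of them even
    have hm4 : m % 4 = 0 := by omega
    obtain ⟨r, hr⟩ : ∃ r, c * d = 2 * r := by
      rcases hcase with ⟨-, h1, -⟩ | ⟨-, -, h1⟩
      · obtain ⟨q, hq⟩ : ∃ q, c = 2 * q := ⟨c / 2, by omega⟩
        exact ⟨q * d, by rw [hq]; ring⟩
      · obtain ⟨q, hq⟩ : ∃ q, d = 2 * q := ⟨d / 2, by omega⟩
        exact ⟨c * q, by rw [hq]; ring⟩
    have hMo : (c ^ 4 + 7 * d ^ 4) % 2 = 1 := by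
      rcases hcase with ⟨-, h1, h2⟩ | ⟨-, h1, h2⟩
      · obtain ⟨q, hq⟩ : ∃ q, c = 2 * q := ⟨c / 2, by omega⟩
        have e : c ^ 4 = 2 * (8 * q ^ 4) := by rw [hq]; ring
        have := pow_odd_odd 4 h2
        omega
      · obtain ⟨q, hq⟩ : ∃ q, d = 2 * q := ⟨d / 2, by omega⟩
        have e : d ^ 4 = 2 * (8 * q ^ 4) := by rw [hq]; ring
        have := pow_odd_odd 4 h1
        omega
    have hto : t % 2 = 1 := by
      by_contra hcon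
      obtain ⟨q, hq⟩ : ∃ q, t = 2 * q := ⟨t / 2, by omega⟩
      have e1 : t ^ 2 = 2 * (2 * q ^ 2) := by rw [hq]; ring
      have e2 : 10 * c ^ 2 * d ^ 2 = 2 * (5 * c ^ 2 * d ^ 2) := by ring
      omega
    have ht0 : 0 < t := by omega
    have hN4 : 2 * c * d * t = 4 * (r * t) := by
      have : 2 * c * d * t = 2 * (c * d) * t := by ring
      rw [this, hr]; ring
    obtain ⟨c', d', g, hc', hd', hg, hco', hM', hN', hq⟩ := red (M := c ^ 4 + 7 * d ^ 4)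
      (N := 2 * c * d * t) (by positivity) (by positivity)
    have hodd1 := odd_of_mul_odd (c := c') (g := g) (by rw [← hM']; exact hMo)
    refine ⟨c', d', hc', hd', hco', ?_, Or.inr (Or.inr ⟨by omega, hodd1.1, ?_⟩)⟩
    · rw [hform ht0, hq]
    · have h1 : 4 ∣ d' * g := by rw [← hN', hN4]; exact Dvd.intro _ rfl
      have h2 : Nat.Coprime 4 g := by
        have : Nat.Coprime (2 ^ 2) g := Nat.Coprime.pow_left 2 (Nat.odd_iff.2 hodd1.2).coprime_two_left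
        exact this
      have := h2.dvd_of_dvd_mul_right h1
      omega

end Vale.Agent.P027.Q
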