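import Vale.Agent.P027.H790.Law2

/-! The law of signs, squares and residues modulo eight: addition and conclusion. -/

set_option linter.all false

namespace Vale.Agent.P027.Q

open Vale.Agent.P027

lemma sq_mod_8 {z : ℤ} (h : z % 8 = 1 ∨ z % 8 = 7) : z ^ 2 % 16 = 1 := by
  rcases h with h | h
  · obtain ⟨q, hq⟩ : ∃ q, z = 8 * q + 1 := ⟨z / 8, by omega⟩
    have : z ^ 2 = 16 * (4 * q ^ 2 + q) + 1 := by rw [hq]; ring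
    omega
  · obtain ⟨q, hq⟩ : ∃ q, z = 8 * q + 7 := ⟨z / 8, by omega⟩
    have : z ^ 2 = 16 * (4 * q ^ 2 + 7 * q + 3) + 1 := by rw [hq]; ring
    omega

lemma sq_mod_8' {z : ℤ} (h : z % 8 = 3 ∨ z % 8 = 5) : z ^ 2 % 16 = 9 := by
  rcases h with h | h
  · obtain ⟨q, hq⟩ : ∃ q, z = 8 * q + 3 := ⟨z / 8, by omega⟩
    have : z ^ 2 = 16 * (4 * q ^ 2 + 3 * q) + 9 := by rw [hq]; ring
    omega
  · obtain ⟨q, hq⟩ : ∃ q, z = 8 * q + 5 := ⟨z / 8, by omega⟩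
    have : z ^ 2 = 16 * (4 * q ^ 2 + 5 * q + 1) + 9 := by rw [hq]; ring
    omega

lemma natAbs_sq_mod {z : ℤ} {r : ℕ} (h : z ^ 2 % 16 = r) : z.natAbs ^ 2 % 16 = r := by
  have h1 : ((z.natAbs ^ 2 : ℕ) : ℤ) = z ^ 2 := by
    push_cast
    rw [sq_abs]
  have h2 : ((z.natAbs ^ 2 : ℕ) : ℤ) % 16 = r := by rw [h1]; exact h
  omega

lemma finish {n : ℕ} {N Mz : ℤ} {a b : ℤ} (g : ℤ) (hN : N = g * b) (hM : Mz = g * a) (hg : g ≠ 0)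
    (hb : 0 < b) (ha : a ≠ 0) (hx : xx n * (N : ℚ) ^ 2 = -(Mz : ℚ) ^ 2) :
    xx n = -((a.natAbs : ℚ) / (b.natAbs : ℚ)) ^ 2 := by
  have key : ∀ z : ℤ, ((z.natAbs : ℕ) : ℚ) ^ 2 = (z : ℚ) ^ 2 := by
    intro z
    have h2 : (((z.natAbs : ℕ) : ℤ) : ℚ) ^ 2 = (z : ℚ) ^ 2 := by
      rw [← Int.cast_pow, ← Int.cast_pow, Int.natCast_natAbs, sq_abs]
    rwa [Int.cast_natCast] at h2
  have e1 := key a
  have e2 := key b
  have hb' : (b : ℚ) ^ 2 ≠ 0 := by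
    have : (b : ℚ) ≠ 0 := by exact_mod_cast hb.ne'
    positivity
  have hg' : (g : ℚ) ^ 2 ≠ 0 := by
    have : (g : ℚ) ≠ 0 := by exact_mod_cast hg
    positivity
  rw [div_pow, e1, e2, ← neg_div, eq_div_iff hb']
  rw [hN, hM] at hx
  push_cast at hx
  have : (xx n * (b : ℚ) ^ 2) * (g : ℚ) ^ 2 = (-(a : ℚ) ^ 2) * (g : ℚ) ^ 2 := by
    linear_combination hx
  exact mul_right_cancel₀ hg' this

lemma res_N {A B C D m α β γ δ : ℤ} (hA : A % m = α % m) (hB : B % m = β % m)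
    (hC : C % m = γ % m) (hD : D % m = δ % m) :
    (A * D + B * C) % m = (α * δ + β * γ) % m ∧
      (7 * B * D - A * C) % m = (7 * β * δ - α * γ) % m := by
  have hA' : A ≡ α [ZMOD m] := hA
  have hB' : B ≡ β [ZMOD m] := hB
  have hC' : C ≡ γ [ZMOD m] := hC
  have hD' : D ≡ δ [ZMOD m] := hD
  exact ⟨(hA'.mul hD').add (hB'.mul hC'), ((hB'.mul_left 7).mul hD').sub (hA'.mul hC')⟩

/-- the residues when all four numbers are odd -/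
lemma res_all {A B C D : ℤ} {o : ℕ}
    (hAB : (A % 16 = 1 ∧ B % 16 = 1) ∨ (A % 16 = 9 ∧ B % 16 = 9))
    (hCD : (C % 16 = 1 ∧ D % 16 = 1 ∧ (o % 16 = 1 ∨ o % 16 = 15)) ∨
          (C % 16 = 9 ∧ D % 16 = 1 ∧ (o % 16 = 3 ∨ o % 16 = 13)) ∨
          (C % 16 = 1 ∧ D % 16 = 9 ∧ (o % 16 = 5 ∨ o % 16 = 11)) ∨
          (C % 16 = 9 ∧ D % 16 = 9 ∧ (o % 16 = 7 ∨ o % 16 = 9))) :
    ((A * D + B * C) % 16 = 2 ∧ (7 * B * D - A * C) % 16 = 6 ∧ (o % 8 = 1 ∨ o % 8 = 7)) ∨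
    ((A * D + B * C) % 16 = 10 ∧ (7 * B * D - A * C) % 16 = 14 ∧ (o % 8 = 3 ∨ o % 8 = 5)) := by
  rcases hAB with ⟨h6, h7⟩ | ⟨h6, h7⟩ <;>
    rcases hCD with ⟨h3, h4, h5⟩ | ⟨h3, h4, h5⟩ | ⟨h3, h4, h5⟩ | ⟨h3, h4, h5⟩
  · obtain ⟨h1, h2⟩ := res_N (m := 16) (α := 1) (β := 1) (γ := 1) (δ := 1) h6 h7 h3 h4
    rw [h1, h2]; exact Or.inl ⟨by norm_num, by norm_num, by omega⟩
  · obtain ⟨h1, h2⟩ := res_N (m := 16) (α := 1) (β := 1) (γ := 9) (δ := 1) h6 h7 h3 h4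
    rw [h1, h2]; exact Or.inr ⟨by norm_num, by norm_num, by omega⟩
  · obtain ⟨h1, h2⟩ := res_N (m := 16) (α := 1) (β := 1) (γ := 1) (δ := 9) h6 h7 h3 h4
    rw [h1, h2]; exact Or.inr ⟨by norm_num, by norm_num, by omega⟩
  · obtain ⟨h1, h2⟩ := res_N (m := 16) (α := 1) (β := 1) (γ := 9) (δ := 9) h6 h7 h3 h4
    rw [h1, h2]; exact Or.inl ⟨by norm_num, by norm_num, by omega⟩
  · obtain ⟨h1, h2⟩ := res_N (m := 16) (α := 9) (β := 9) (γ := 1) (δ := 1) h6 h7 h3 h4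
    rw [h1, h2]; exact Or.inl ⟨by norm_num, by norm_num, by omega⟩
  · obtain ⟨h1, h2⟩ := res_N (m := 16) (α := 9) (β := 9) (γ := 9) (δ := 1) h6 h7 h3 h4
    rw [h1, h2]; exact Or.inr ⟨by norm_num, by norm_num, by omega⟩
  · obtain ⟨h1, h2⟩ := res_N (m := 16) (α := 9) (β := 9) (γ := 1) (δ := 9) h6 h7 h3 h4
    rw [h1, h2]; exact Or.inr ⟨by norm_num, by norm_num, by omega⟩
  · obtain ⟨h1, h2⟩ := res_N (m := 16) (α := 9) (β := 9) (γ := 9) (δ := 9) h6 h7 h3 h4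
    rw [h1, h2]; exact Or.inl ⟨by norm_num, by norm_num, by omega⟩

lemma sq8 {z : ℕ} (h : z % 2 = 1) : (z : ℤ) ^ 2 % 8 = 1 := by
  obtain ⟨i, hi⟩ := sq_odd_nat h
  omega

lemma res_o {o c d : ℕ} (hco : (d % 8 = 1 ∧ c ^ 2 % 16 = 1 ∧ (o % 16 = 1 ∨ o % 16 = 15)) ∨
    (d % 8 = 1 ∧ c ^ 2 % 16 = 9 ∧ (o % 16 = 3 ∨ o % 16 = 13)) ∨
    (d % 8 = 5 ∧ c ^ 2 % 16 = 1 ∧ (o % 16 = 5 ∨ o % 16 = 11)) ∨
    (d % 8 = 5 ∧ c ^ 2 % 16 = 9 ∧ (o % 16 = 7 ∨ o % 16 = 9))) :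
    ((c : ℤ) ^ 2 % 16 = 1 ∧ (d : ℤ) ^ 2 % 16 = 1 ∧ (o % 16 = 1 ∨ o % 16 = 15)) ∨
          ((c : ℤ) ^ 2 % 16 = 9 ∧ (d : ℤ) ^ 2 % 16 = 1 ∧ (o % 16 = 3 ∨ o % 16 = 13)) ∨
          ((c : ℤ) ^ 2 % 16 = 1 ∧ (d : ℤ) ^ 2 % 16 = 9 ∧ (o % 16 = 5 ∨ o % 16 = 11)) ∨
          ((c : ℤ) ^ 2 % 16 = 9 ∧ (d : ℤ) ^ 2 % 16 = 9 ∧ (o % 16 = 7 ∨ o % 16 = 9)) := by
  have hcz : ∀ r : ℕ, c ^ 2 % 16 = r → (c : ℤ) ^ 2 % 16 = r := by
    intro r h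
    have : ((c ^ 2 : ℕ) : ℤ) % 16 = r := by omega
    push_cast at this
    exact this
  rcases hco with ⟨h1, h2, h3⟩ | ⟨h1, h2, h3⟩ | ⟨h1, h2, h3⟩ | ⟨h1, h2, h3⟩
  · exact Or.inl ⟨hcz 1 h2, sq_mod_8 (by omega), h3⟩
  · exact Or.inr (Or.inl ⟨hcz 9 h2, sq_mod_8 (by omega), h3⟩)
  · exact Or.inr (Or.inr (Or.inl ⟨hcz 1 h2, sq_mod_8' (by omega), h3⟩))
  · exact Or.inr (Or.inr (Or.inr ⟨hcz 9 h2, sq_mod_8' (by omega), h3⟩))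

lemma res_e {a b : ℕ} (ha : a % 2 = 1) (hab16 : a ^ 2 % 16 = b ^ 2 % 16) :
    ((a : ℤ) ^ 2 % 16 = 1 ∧ (b : ℤ) ^ 2 % 16 = 1) ∨
        ((a : ℤ) ^ 2 % 16 = 9 ∧ (b : ℤ) ^ 2 % 16 = 9) := by
  have h5 : ((a ^ 2 : ℕ) : ℤ) % 16 = ((b ^ 2 : ℕ) : ℤ) % 16 := by omega
  push_cast at h5
  have h6 := sq8 ha
  omega

lemma cop_of {N M x y g : ℤ} (hnp : ∀ p : ℕ, p.Prime → p ≠ 2 → (p : ℤ) ∣ N → (p : ℤ) ∣ M → False)
    (hy : N = g * y) (hx : M = g * x) (hy2 : y % 2 = 1) : Nat.Coprime x.natAbs y.natAbs := by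
  refine Nat.coprime_of_dvd fun p hp h1 h2 => ?_
  have hp2 : p ≠ 2 := by
    rintro rfl
    have : (2 : ℤ) ∣ y := by
      have := Int.natCast_dvd_natCast.2 h2
      rwa [Int.dvd_natAbs] at this
    omega
  have h3 : (p : ℤ) ∣ y := by
    have := Int.natCast_dvd_natCast.2 h2
    rwa [Int.dvd_natAbs] at this
  have h4 : (p : ℤ) ∣ x := by
    have := Int.natCast_dvd_natCast.2 h1
    rwa [Int.dvd_natAbs] at this
  exact hnp p hp hp2 (by rw [hy]; exact h3.mul_left _) (by rw [hx]; exact h4.mul_left _)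

lemma fin_two {n : ℕ} {N M : ℤ} (hN0 : 0 < N) (hx : xx n * (N : ℚ) ^ 2 = -(M : ℚ) ^ 2)
    (hnp : ∀ p : ℕ, p.Prime → p ≠ 2 → (p : ℤ) ∣ N → (p : ℤ) ∣ M → False)
    (hNM : (N % 16 = 2 ∧ M % 16 = 6 ∧ (n % 16 = 3 ∨ n % 16 = 13)) ∨
      (N % 16 = 10 ∧ M % 16 = 14 ∧ (n % 16 = 5 ∨ n % 16 = 11))) : ∃ c' d', FrmO n c' d' := by
  obtain ⟨y, hy⟩ : ∃ y, N = 2 * y := ⟨N / 2, by omega⟩
  obtain ⟨x, hx'⟩ : ∃ x, M = 2 * x := ⟨M / 2, by omega⟩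
  have hy2 : y % 2 = 1 := by omega
  have hcop := cop_of hnp hy hx' hy2
  have hfin := finish 2 hy hx' two_ne_zero (by omega) (by omega) hx
  clear hx hnp
  refine ⟨x.natAbs, y.natAbs, by omega, by omega, hcop, hfin, ?_⟩
  clear hfin hcop
  rcases hNM with ⟨h3, h4, h5⟩ | ⟨h3, h4, h5⟩
  · have := natAbs_sq_mod (r := 9) (sq_mod_8' (z := x) (by omega))
    omega
  · have := natAbs_sq_mod (r := 1) (sq_mod_8 (z := x) (by omega))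
    omega

lemma fin_one {n : ℕ} {N M : ℤ} (hN0 : 0 < N) (hx : xx n * (N : ℚ) ^ 2 = -(M : ℚ) ^ 2)
    (hnp : ∀ p : ℕ, p.Prime → p ≠ 2 → (p : ℤ) ∣ N → (p : ℤ) ∣ M → False)
    (hNM : (N % 8 = 5 ∧ M % 8 = 3 ∧ (n % 16 = 7 ∨ n % 16 = 9)) ∨
      (N % 8 = 1 ∧ M % 8 = 7 ∧ (n % 16 = 1 ∨ n % 16 = 15))) : ∃ c' d', FrmO n c' d' := by
  have hcop := cop_of (x := M) (y := N) (g := 1) hnp (by ring) (by ring) (by omega)
  have hfin := finish (a := M) (b := N) 1 (by ring) (by ring) one_ne_zero (by omega) (by omega) hx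
  clear hx hnp
  refine ⟨M.natAbs, N.natAbs, by omega, by omega, hcop, hfin, ?_⟩
  clear hfin hcop
  rcases hNM with ⟨h3, h4, h5⟩ | ⟨h3, h4, h5⟩
  · have := natAbs_sq_mod (r := 9) (sq_mod_8' (z := M) (by omega))
    omega
  · have := natAbs_sq_mod (r := 1) (sq_mod_8 (z := M) (by omega))
    omega

/-- addition of neighbours -/
lemma add_frm {e o a b c d : ℕ} (he : e ≠ 0) (ho1 : o % 2 = 1) (hadj : e = o + 1 ∨ o = e + 1)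
    (hE : FrmE e a b) (hO : FrmO o c d) : ∃ c' d', FrmO (e + o) c' d' := by
  obtain ⟨ha0, hb0, hab, hxe, hcase⟩ := hE
  obtain ⟨hc, hd, hcd, hxo, hco⟩ := hO
  have hc0 : 0 < c := by omega
  have hd0 : 0 < d := by omega
  have ho : o ≠ 0 := by omega
  obtain ⟨h1, h2⟩ := xx_add_int he ho hadj ha0 hb0 hc0 hd0 hxe hxo
  obtain ⟨Ye, hYe, -⟩ := hasX_xx he
  obtain ⟨te, hte⟩ := quart_even ha0 hb0 hYe hxe
  obtain ⟨Yo, hYo, -⟩ := hasX_xx ho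
  obtain ⟨t', hto⟩ := quart_odd hc0 hd0 hYo hxo
  have h7a := seven_even hab hte
  have h7c := seven_odd hcd hto
  have hnp : ∀ p : ℕ, p.Prime → p ≠ 2 → (p : ℤ) ∣ (a : ℤ) ^ 2 * d ^ 2 + b ^ 2 * c ^ 2 →
      (p : ℤ) ∣ 7 * (b : ℤ) ^ 2 * d ^ 2 - a ^ 2 * c ^ 2 → False := fun p hp hp2 h3 h4 =>
    no_odd_prime hab hcd h7a h7c h2 hp hp2 h3 h4
  have hN0 : 0 < (a : ℤ) ^ 2 * d ^ 2 + b ^ 2 * c ^ 2 := by positivity
  have hx : xx (e + o) * (((a : ℤ) ^ 2 * d ^ 2 + b ^ 2 * c ^ 2 : ℤ) : ℚ) ^ 2 =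
      -((7 * (b : ℤ) ^ 2 * d ^ 2 - a ^ 2 * c ^ 2 : ℤ) : ℚ) ^ 2 := by
    push_cast; exact h1
  clear h1 h2 hte hto hYe hYo h7a h7c hab hcd
  have hro := res_o hco
  rcases hcase with ⟨he4, ha, hb, hab16⟩ | ⟨he8, ha, hb⟩ | ⟨he8, ha, hb⟩
  · -- `e = 2` mod `4`
    have hNM := res_all (res_e ha hab16) hro
    refine fin_two hN0 hx hnp ?_
    clear hN0 hx hnp hro hxe hxo hab16 hco
    rcases hNM with ⟨h3, h4, h5⟩ | ⟨h3, h4, h5⟩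
    · refine Or.inl ⟨h3, h4, ?_⟩
      clear h3 h4
      omega
    · refine Or.inr ⟨h3, h4, ?_⟩
      clear h3 h4
      omega
  · -- `e = 4` mod `8`
    have ha4 : (a : ℤ) ^ 2 % 8 = 4 := by
      obtain ⟨q, hq⟩ : ∃ q, a = 4 * q + 2 := ⟨a / 4, by omega⟩
      have : (a : ℤ) ^ 2 = 8 * (2 * q ^ 2 + 2 * q) + 4 := by rw [hq]; push_cast; ring
      rw [this]; omega
    obtain ⟨hN8, hM8⟩ := res_N (m := 8) (α := 4) (β := 1) (γ := 1) (δ := 1) ha4 (sq8 hb) (sq8 hc)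
      (sq8 hd)
    refine fin_one hN0 hx hnp (Or.inl ⟨hN8.trans (by norm_num), hM8.trans (by norm_num), ?_⟩)
    clear hN0 hx hnp hro hxe hxo hN8 hM8 ha4 hco
    omega
  · -- `e = 0` mod `8`
    have hb8 : (b : ℤ) ^ 2 % 8 = 0 := by
      obtain ⟨q, hq⟩ : ∃ q, b = 4 * q := ⟨b / 4, by omega⟩
      have : (b : ℤ) ^ 2 = 8 * (2 * q ^ 2) := by rw [hq]; push_cast; ring
      rw [this]; omega
    obtain ⟨hN8, hM8⟩ := res_N (m := 8) (α := 1) (β := 0) (γ := 1) (δ := 1) (sq8 ha) hb8 (sq8 hc)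
      (sq8 hd)
    refine fin_one hN0 hx hnp (Or.inr ⟨hN8.trans (by norm_num), hM8.trans (by norm_num), ?_⟩)
    clear hN0 hx hnp hro hxe hxo hN8 hM8 hb8 hco
    omega

lemma xx_one : xx 1 = -1 := by
  have h := hasX_xx one_ne_zero
  rw [Nat.cast_one, one_zsmul] at h
  exact h.unique hasX_P0

theorem frm_all (n : ℕ) : 0 < n →
    ((n % 2 = 1 → ∃ c d, FrmO n c d) ∧ (n % 2 = 0 → ∃ c d, FrmE n c d)) := by
  induction n using Nat.strong_induction_on with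
  | _ n IH =>
  intro hn
  constructor
  · intro hodd
    by_cases h1 : n = 1
    · subst h1
      refine ⟨1, 1, rfl, rfl, by norm_num, by rw [xx_one]; norm_num, Or.inl (by norm_num)⟩
    · obtain ⟨k, hk⟩ : ∃ k, n = 2 * k + 1 := ⟨n / 2, by omega⟩
      have hk0 : 0 < k := by omega
      obtain ⟨i1, i2⟩ := IH k (by omega) hk0
      obtain ⟨j1, j2⟩ := IH (k + 1) (by omega) (by omega)
      by_cases hk2 : k % 2 = 0
      · obtain ⟨a, b, hE⟩ := i2 hk2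
        obtain ⟨c, d, hO⟩ := j1 (by omega)
        have := add_frm (e := k) (o := k + 1) (by omega) (by omega) (Or.inr rfl) hE hO
        rwa [show k + (k + 1) = n by omega] at this
      · obtain ⟨a, b, hE⟩ := j2 (by omega)
        obtain ⟨c, d, hO⟩ := i1 (by omega)
        have := add_frm (e := k + 1) (o := k) (by omega) (by omega) (Or.inl rfl) hE hO
        rwa [show k + 1 + k = n by omega] at this
  · intro heven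
    obtain ⟨m, rfl⟩ : ∃ m, n = 2 * m := ⟨n / 2, by omega⟩
    obtain ⟨i1, i2⟩ := IH m (by omega) (by omega)
    by_cases hm : m % 2 = 1
    · obtain ⟨c, d, h⟩ := i1 hm
      exact dbl_odd hm h
    · obtain ⟨c, d, h⟩ := i2 (by omega)
      exact dbl_even (by omega) h

/-- the law -/
theorem law : Law := by
  intro n hn
  obtain ⟨c, d, h1, h2, h3, h4, h5⟩ := (frm_all n (by omega)).1 hn
  refine ⟨c, d, h1, h2, h3, h4, ?_⟩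
  omega

end Vale.Agent.P027.Q
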