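import Vale.Agent.P027.H790.Grow

/-! For every large odd index `n` there is a prime of exact order `n`. -/

set_option linter.all false

namespace Vale.Agent.P027.Q

open Vale.Agent.P027

theorem pow_dvd_den_iff {q : ℕ} [hq : Fact q.Prime] {k : ℕ} (hk : 1 ≤ k) (x : ℚ) :
    q ^ k ∣ x.den ↔ (q : ℚ) ^ k ≤ padicNorm q x := by
  have hx : x = (x.num : ℚ) / ((x.den : ℤ) : ℚ) := by
    rw [Int.cast_natCast]; exact (Rat.num_div_den x).symm
  have hq1 : (1 : ℚ) < q := by exact_mod_cast hq.out.one_lt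
  have hqk : (1 : ℚ) < (q : ℚ) ^ k := one_lt_pow₀ hq1 (by omega)
  have hn : padicNorm q x = padicNorm q (x.num : ℚ) / padicNorm q ((x.den : ℤ) : ℚ) := by
    conv_lhs => rw [hx]
    rw [padicNorm.div]
  by_cases hd : q ∣ x.den
  · have h1 : ¬ (q : ℤ) ∣ x.num := by
      intro h
      have h2 : q ∣ x.num.natAbs := Int.natCast_dvd.1 h
      have h3 := Nat.dvd_gcd h2 hd
      rw [x.reduced.gcd_eq_one] at h3
      exact hq.out.one_lt.ne' (Nat.dvd_one.1 h3)
    rw [hn, (padicNorm.int_eq_one_iff x.num).2 h1]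
    have h4 := padicNorm.dvd_iff_norm_le (p := q) (n := k) (z := (x.den : ℤ))
    have h5 : 0 < padicNorm q ((x.den : ℤ) : ℚ) :=
      lt_of_le_of_ne (padicNorm.nonneg _) (padicNorm.nonzero (by
        exact_mod_cast x.den_ne_zero)).symm
    rw [le_div_iff₀ h5, ← Int.natCast_dvd_natCast, h4, zpow_neg, zpow_natCast,
      ← le_div_iff₀' (by positivity), one_div]
  · have h1 : ¬ (q : ℤ) ∣ (x.den : ℤ) := fun h => hd (Int.natCast_dvd_natCast.1 h)
    rw [hn, (padicNorm.int_eq_one_iff (x.den : ℤ)).2 h1, div_one]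
    constructor
    · intro h
      exact absurd ((dvd_pow_self q (by omega)).trans h) hd
    · intro h
      have := padicNorm.of_int (p := q) x.num
      linarith

/-- signs of the first coordinates -/
theorem xc_sign (n : ℕ) : xc (((2 * n + 1 : ℕ) : ℤ) • P0) < 0 ∧
    0 < xc (((2 * n + 2 : ℕ) : ℤ) • P0) := by
  induction n with
  | zero =>
    constructor
    · have := xc_of_hasX hasX_1
      simp only [mul_zero, zero_add, Nat.cast_one]
      rw [this]; norm_num
    · have := xc_of_hasX hasX_2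
      simp only [mul_zero, zero_add, Nat.cast_ofNat]
      rw [this]; norm_num
  | succ n ih =>
    have key : ∀ m : ℕ, 2 ≤ m → 0 < xc (((m + 1 : ℕ) : ℤ) • P0) * xc (((m - 1 : ℕ) : ℤ) • P0) := by
      intro m hm
      have hm0 : (m : ℤ) ≠ 0 := by omega
      have h1 : HasX ((m : ℤ) • P0) (xc ((m : ℤ) • P0)) := hasX_xc (zsmul_P0_ne_zero hm0)
      have hne : xc ((m : ℤ) • P0) ≠ -1 := by
        intro h
        rw [h] at h1
        rcases h1.eq_or_neg hasX_1 with h2 | h2
        · have := zsmul_inj h2; omega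
        · rw [← neg_zsmul] at h2
          have := zsmul_inj h2; omega
      obtain ⟨s, d, hs, hd, -, hprod⟩ := hasX_add_sub h1 hasX_1 hne
      rw [← add_zsmul] at hs
      rw [sub_eq_add_neg, ← sub_zsmul] at hd
      have es : s = xc (((m + 1 : ℕ) : ℤ) • P0) := by
        rw [show (((m + 1 : ℕ) : ℤ)) = (m : ℤ) + 1 by push_cast; ring]
        exact (xc_of_hasX hs).symm
      have ed : d = xc (((m - 1 : ℕ) : ℤ) • P0) := by
        rw [show (((m - 1 : ℕ) : ℤ)) = (m : ℤ) - 1 by push_cast [Nat.cast_sub (by omega : 1 ≤ m)]; ring]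
        exact (xc_of_hasX hd).symm
      rw [← es, ← ed]
      have hs0 : s ≠ 0 := by rw [es]; exact xc_ne_zero (by omega)
      have hd0 : d ≠ 0 := by rw [ed]; exact xc_ne_zero (by omega)
      have h3 : (xc ((m : ℤ) • P0) - -1) ≠ 0 := sub_ne_zero.2 hne
      have h4 : 0 < (xc ((m : ℤ) • P0) - -1) ^ 2 := by positivity
      have h5 : 0 ≤ s * d * (xc ((m : ℤ) • P0) - -1) ^ 2 := by rw [hprod]; positivity
      have h6 : 0 ≤ s * d := by
        by_contra hcon
        push Not at hcon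
        nlinarith
      exact lt_of_le_of_ne h6 (mul_ne_zero hs0 hd0).symm
    have k1 := key (2 * n + 2) (by omega)
    have k2 := key (2 * n + 3) (by omega)
    have e1 : 2 * n + 2 + 1 = 2 * (n + 1) + 1 := by ring
    have e2 : 2 * n + 2 - 1 = 2 * n + 1 := by omega
    have e3 : 2 * n + 3 + 1 = 2 * (n + 1) + 2 := by ring
    have e4 : 2 * n + 3 - 1 = 2 * n + 2 := by omega
    rw [e1, e2] at k1
    rw [e3, e4] at k2
    constructor
    · by_contra hcon
      push Not at hcon
      nlinarith [ih.1]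
    · by_contra hcon
      push Not at hcon
      nlinarith [ih.2]

theorem xc_odd_neg {n : ℕ} (hn : Odd n) : xc ((n : ℤ) • P0) < 0 := by
  obtain ⟨k, rfl⟩ := hn
  exact (xc_sign k).1

/-- the coordinate of a point with negative first coordinate is at least `-11` -/
theorem bounded_of_neg {V : E.Point} {x : ℚ} (h : HasX V x) (hx : x < 0) : -11 < x := by
  obtain ⟨y, hy, -⟩ := h
  by_contra hcon
  push Not at hcon
  have h1 : 0 ≤ x * (x ^ 2 + 10 * x - 7) := by nlinarith [sq_nonneg y]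
  have h2 : 0 < x ^ 2 + 10 * x - 7 := by nlinarith
  nlinarith

theorem height_le_den {n : ℕ} (hn : Odd n) : Hq (xc ((n : ℤ) • P0)) ≤ 11 * (xc ((n : ℤ) • P0)).den := by
  set x := xc ((n : ℤ) • P0) with hx
  have h1 := xc_odd_neg hn
  rw [← hx] at h1
  have hn0 : (n : ℤ) ≠ 0 := by
    obtain ⟨k, rfl⟩ := hn
    omega
  have h2 := bounded_of_neg (hasX_xc (zsmul_P0_ne_zero hn0)) (by rw [← hx]; exact h1)
  rw [← hx] at h2
  unfold Hq
  refine max_le ?_ (by omega)
  have h3 : x * x.den = x.num := Rat.mul_den_eq_num x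
  have hd : (0 : ℚ) < x.den := by exact_mod_cast x.den_pos
  have h4 : (-(11 * x.den : ℤ) : ℚ) < x.num := by
    push_cast
    rw [← h3]
    nlinarith
  have h5 : (x.num : ℚ) < 0 := by rw [← h3]; exact mul_neg_of_neg_of_pos h1 hd
  have h6 : -(11 * (x.den : ℤ)) < x.num := by exact_mod_cast h4
  have h7 : x.num < 0 := by exact_mod_cast h5
  omega

/-- the `q`-part of a denominator, when `q` divides the denominator of an earlier index -/
theorem part_dvd {q : ℕ} (hq : q.Prime) {p m k : ℕ} (hp : p.Prime) (hm : 0 < m) (h : Dv q m)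
    (hk : q ^ k ∣ (xc (((p * m : ℕ) : ℤ) • P0)).den) :
    q ^ k ∣ p ^ 2 * (xc ((m : ℤ) • P0)).den := by
  have : Fact q.Prime := ⟨hq⟩
  rcases Nat.eq_zero_or_pos k with hk0 | hk0
  · subst hk0; simp
  have hm0 : (m : ℤ) ≠ 0 := by omega
  have hv : padicValRat q (xc ((m : ℤ) • P0)) < 0 := by
    rcases h with h | h
    · exact absurd h hm0
    · exact h
  have h1 := norm_gt_of_val_neg q (xc_ne_zero hm0) hv
  have h2 := norm_smul_int q hm0 h1 (k := (p : ℤ)) (by exact_mod_cast hp.ne_zero)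
  have e : ((m : ℤ) * (p : ℤ)) = (((p * m : ℕ) : ℤ)) := by push_cast; ring
  rw [e] at h2
  rw [pow_dvd_den_iff hk0] at hk
  -- norm of the denominator
  have hden : ∀ x : ℚ, 1 < padicNorm q x → padicNorm q ((x.den : ℕ) : ℚ) = (padicNorm q x)⁻¹ := by
    intro x hx
    have h3 : q ∣ x.den := by
      rw [← pow_one q, pow_dvd_den_iff le_rfl, pow_one]
      have h0 : x ≠ 0 := by
        rintro rfl
        rw [padicNorm.zero] at hx
        linarith
      have hq1 : (1 : ℚ) < q := by exact_mod_cast hq.one_lt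
      rw [norm_eq_zpow q h0] at hx ⊢
      have h4 : (0 : ℤ) < -padicValRat q x := by
        by_contra hcon
        push Not at hcon
        have := zpow_le_zpow_right₀ hq1.le hcon
        rw [zpow_zero] at this
        linarith
      calc (q : ℚ) = (q : ℚ) ^ (1 : ℤ) := (zpow_one _).symm
        _ ≤ _ := zpow_le_zpow_right₀ hq1.le (by omega)
    have h5 : ¬ (q : ℤ) ∣ x.num := by
      intro h
      have h2 : q ∣ x.num.natAbs := Int.natCast_dvd.1 h
      have h6 := Nat.dvd_gcd h2 h3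
      rw [x.reduced.gcd_eq_one] at h6
      exact hq.one_lt.ne' (Nat.dvd_one.1 h6)
    have h6 : x = (x.num : ℚ) / (x.den : ℚ) := (Rat.num_div_den x).symm
    have h7 : padicNorm q x = padicNorm q (x.num : ℚ) / padicNorm q (x.den : ℚ) := by
      conv_lhs => rw [h6]
      rw [padicNorm.div]
    rw [(padicNorm.int_eq_one_iff x.num).2 h5] at h7
    rw [h7]
    simp
  have n1 := hden _ h1
  have n2 : padicNorm q (((p ^ 2 * (xc ((m : ℤ) • P0)).den : ℕ)) : ℚ) =
      (padicNorm q (xc (((p * m : ℕ) : ℤ) • P0)))⁻¹ := by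
    have hpn : padicNorm q (p : ℚ) ≠ 0 := padicNorm.nonzero (by exact_mod_cast hp.ne_zero)
    have hxn : padicNorm q (xc (((p * m : ℕ) : ℤ) • P0)) ≠ 0 :=
      padicNorm.nonzero (xc_ne_zero (by
        have := hp.pos
        have : 0 < p * m := Nat.mul_pos this hm
        omega))
    push_cast at *
    rw [padicNorm.mul, n1, ← h2, sq, padicNorm.mul]
    field_simp
  have h8 : ((q ^ k : ℕ) : ℤ) ∣ ((p ^ 2 * (xc ((m : ℤ) • P0)).den : ℕ) : ℤ) := by
    rw [padicNorm.dvd_iff_norm_le]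
    rw [Int.cast_natCast, n2, zpow_neg, zpow_natCast]
    apply inv_anti₀
    · have : (0 : ℚ) < q := by exact_mod_cast hq.pos
      positivity
    · exact hk
  exact_mod_cast h8

/-- the sum of the inverse squares of the odd prime divisors -/
theorem sum_inv_sq (n : ℕ) (hn : Odd n) (hn0 : 0 < n) :
    ∑ p ∈ n.primeFactors, ((n / p : ℕ) : ℝ) ^ 2 ≤ (n : ℝ) ^ 2 / 4 := by
  have tele : ∀ m : ℕ, ∑ k ∈ Finset.range m, 1 / ((2 * (k : ℝ) + 3) ^ 2) ≤ 1 / 4 - 1 / (4 * (m + 1 : ℝ)) := by
    intro m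
    induction m with
    | zero => simp
    | succ m ih =>
      rw [Finset.sum_range_succ]
      have hm : (0 : ℝ) ≤ m := Nat.cast_nonneg m
      have h1 : 1 / ((2 * (m : ℝ) + 3) ^ 2) ≤ 1 / (4 * (m + 1 : ℝ)) - 1 / (4 * ((m + 1 : ℕ) + 1 : ℝ)) := by
        push_cast
        rw [div_sub_div _ _ (by positivity) (by positivity), div_le_div_iff₀ (by positivity) (by positivity)]
        nlinarith
      linarith
  have h1 : ∀ p ∈ n.primeFactors, ((n / p : ℕ) : ℝ) ^ 2 = (n : ℝ) ^ 2 * (1 / (p : ℝ) ^ 2) := by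
    intro p hp
    have hpp := Nat.prime_of_mem_primeFactors hp
    have hd := Nat.dvd_of_mem_primeFactors hp
    rw [Nat.cast_div hd (by exact_mod_cast hpp.ne_zero)]
    rw [div_pow]; ring
  rw [Finset.sum_congr rfl h1, ← Finset.mul_sum]
  have h2 : ∑ p ∈ n.primeFactors, 1 / (p : ℝ) ^ 2 ≤ 1 / 4 := by
    have hinj : Set.InjOn (fun p : ℕ => (p - 3) / 2) (n.primeFactors : Set ℕ) := by
      intro p hp q hq h
      simp only [Finset.mem_coe] at hp hq
      have hp1 : Odd p := by
        have := Nat.dvd_of_mem_primeFactors hp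
        exact Odd.of_dvd_nat hn this
      have hq1 : Odd q := Odd.of_dvd_nat hn (Nat.dvd_of_mem_primeFactors hq)
      have hp2 := (Nat.prime_of_mem_primeFactors hp).two_le
      have hq2 := (Nat.prime_of_mem_primeFactors hq).two_le
      obtain ⟨a, ha⟩ := hp1
      obtain ⟨b, hb⟩ := hq1
      simp only at h
      omega
    have h3 : ∑ p ∈ n.primeFactors, 1 / (p : ℝ) ^ 2 =
        ∑ k ∈ n.primeFactors.image (fun p : ℕ => (p - 3) / 2), 1 / ((2 * (k : ℝ) + 3) ^ 2) := by
      rw [Finset.sum_image hinj]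
      refine Finset.sum_congr rfl (fun p hp => ?_)
      have hp1 : Odd p := Odd.of_dvd_nat hn (Nat.dvd_of_mem_primeFactors hp)
      have hp2 := (Nat.prime_of_mem_primeFactors hp).two_le
      obtain ⟨a, ha⟩ := hp1
      have h4 : (p : ℝ) = 2 * (((p - 3) / 2 : ℕ) : ℝ) + 3 := by
        have : p = 2 * ((p - 3) / 2) + 3 := by omega
        exact_mod_cast this
      rw [← h4]
    rw [h3]
    obtain ⟨M, hM⟩ : ∃ M, n.primeFactors.image (fun p : ℕ => (p - 3) / 2) ⊆ Finset.range M := by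
      refine ⟨n, ?_⟩
      intro k hk
      rw [Finset.mem_image] at hk
      obtain ⟨p, hp, rfl⟩ := hk
      have hd := Nat.le_of_dvd hn0 (Nat.dvd_of_mem_primeFactors hp)
      have := (Nat.prime_of_mem_primeFactors hp).two_le
      rw [Finset.mem_range]
      omega
    refine (Finset.sum_le_sum_of_subset_of_nonneg hM (fun k _ _ => by positivity)).trans ?_
    refine (tele M).trans ?_
    have : (0 : ℝ) ≤ 1 / (4 * (M + 1 : ℝ)) := by positivity
    linarith
  have h4 : (0 : ℝ) ≤ (n : ℝ) ^ 2 := by positivity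
  nlinarith

/-- a prime of exact order `n` for every large odd `n` -/
theorem exists_exact : ∃ N0 : ℕ, ∀ n : ℕ, Odd n → N0 < n → ∃ q : ℕ, q.Prime ∧ Ord q n := by
  obtain ⟨κ, C, hκ, hC0, hC⟩ := growth
  obtain ⟨N0, hN0⟩ := exists_nat_gt (4 * (2 * C + 20) / κ)
  refine ⟨N0, fun n hn hN => ?_⟩
  by_contra hcon
  push Not at hcon
  have hn0 : 0 < n := hn.pos
  have hnz : (n : ℤ) ≠ 0 := by omega
  -- divisibility
  have hdvd : (xc ((n : ℤ) • P0)).den ∣
      ∏ p ∈ n.primeFactors, (p ^ 2 * (xc (((n / p : ℕ) : ℤ) • P0)).den) := by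
    rw [Nat.dvd_iff_prime_pow_dvd_dvd]
    intro q k hq hk
    rcases Nat.eq_zero_or_pos k with hk0 | hk0
    · subst hk0; simp
    have : Fact q.Prime := ⟨hq⟩
    have hDv : Dv q n := by
      right
      have h1 : (q : ℚ) ^ k ≤ padicNorm q (xc ((n : ℤ) • P0)) := (pow_dvd_den_iff hk0 _).1 hk
      have hq1 : (1 : ℚ) < q := by exact_mod_cast hq.one_lt
      have h2 : (1 : ℚ) < (q : ℚ) ^ k := one_lt_pow₀ hq1 (by omega)
      exact (val_neg_of_norm_gt q (by linarith)).2
    obtain ⟨m, hm⟩ := exists_Ord hq hnz hDv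
    have hmn : m ∣ n := by exact_mod_cast (hm.2 _).1 hDv
    have hne : m ≠ n := by
      rintro rfl
      exact hcon q hq hm
    obtain ⟨j, hj⟩ := hmn
    have hj1 : j ≠ 1 := by
      rintro rfl
      apply hne; omega
    obtain ⟨p, hp, hpj⟩ := Nat.exists_prime_and_dvd hj1
    have hpn : p ∣ n := by rw [hj]; exact hpj.mul_left _
    obtain ⟨i, hi⟩ := hpj
    have hnp : n / p = m * i := by
      rw [hj, hi]
      rw [show m * (p * i) = p * (m * i) by ring]
      exact Nat.mul_div_cancel_left _ hp.pos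
    have hDp : Dv q ((n / p : ℕ) : ℤ) := by
      rw [hm.2, hnp]
      push_cast
      exact dvd_mul_right _ _
    have hmul : p * (n / p) = n := Nat.mul_div_cancel' hpn
    have hk' : q ^ k ∣ (xc (((p * (n / p) : ℕ) : ℤ) • P0)).den := by rw [hmul]; exact hk
    have hnp0 : 0 < n / p := Nat.div_pos (Nat.le_of_dvd hn0 hpn) hp.pos
    refine (part_dvd hq hp hnp0 hDp hk').trans ?_
    exact Finset.dvd_prod_of_mem _ (Nat.mem_primeFactors.2 ⟨hp, hpn, hn0.ne'⟩)
  -- logarithms
  have hden : ∀ m : ℕ, (0 : ℝ) < (xc ((m : ℤ) • P0)).den := fun m => by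
    exact_mod_cast (xc ((m : ℤ) • P0)).den_pos
  have hup : ∀ m : ℕ, 0 < m → Real.log (xc ((m : ℤ) • P0)).den ≤ κ * (m : ℝ) ^ 2 + C := by
    intro m hm
    have h1 := hC m _ (hasX_xc (zsmul_P0_ne_zero (by omega : (m : ℤ) ≠ 0)))
    rw [abs_le] at h1
    have h2 : Real.log (xc ((m : ℤ) • P0)).den ≤ Real.log (Hq (xc ((m : ℤ) • P0))) := by
      apply Real.log_le_log (hden m)
      exact_mod_cast le_max_right _ _
    have h3 := h1.2
    push_cast at h3
    linarith
  have hlow : κ * (n : ℝ) ^ 2 - C - 10 ≤ Real.log (xc ((n : ℤ) • P0)).den := by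
    have h1 := hC n _ (hasX_xc (zsmul_P0_ne_zero hnz))
    rw [abs_le] at h1
    have h2 := height_le_den hn
    have h3 : Real.log (Hq (xc ((n : ℤ) • P0))) ≤ Real.log 11 + Real.log (xc ((n : ℤ) • P0)).den := by
      rw [← Real.log_mul (by norm_num) (hden n).ne']
      apply Real.log_le_log
      · have : 0 < Hq (xc ((n : ℤ) • P0)) :=
          lt_of_lt_of_le (xc ((n : ℤ) • P0)).den_pos (le_max_right _ _)
        exact_mod_cast this
      · exact_mod_cast h2
    have h4 : Real.log 11 ≤ 10 := by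
      have := Real.log_le_sub_one_of_pos (show (0 : ℝ) < 11 by norm_num)
      linarith
    have h5 := h1.1
    push_cast at h5
    linarith
  have hprodpos : 0 < ∏ p ∈ n.primeFactors, (p ^ 2 * (xc (((n / p : ℕ) : ℤ) • P0)).den) := by
    apply Finset.prod_pos
    intro p hp
    have := (Nat.prime_of_mem_primeFactors hp).pos
    have := (xc (((n / p : ℕ) : ℤ) • P0)).den_pos
    positivity
  have hle := Nat.le_of_dvd hprodpos hdvd
  have hlog : Real.log (xc ((n : ℤ) • P0)).den ≤
      ∑ p ∈ n.primeFactors, (2 * Real.log p + Real.log (xc (((n / p : ℕ) : ℤ) • P0)).den) := by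
    have h1 : Real.log (xc ((n : ℤ) • P0)).den ≤ Real.log
        ((∏ p ∈ n.primeFactors, (p ^ 2 * (xc (((n / p : ℕ) : ℤ) • P0)).den) : ℕ) : ℝ) := by
      apply Real.log_le_log (hden n)
      exact_mod_cast hle
    refine h1.trans (le_of_eq ?_)
    rw [Nat.cast_prod, Real.log_prod]
    · refine Finset.sum_congr rfl (fun p hp => ?_)
      have hp0 : (0 : ℝ) < p := by exact_mod_cast (Nat.prime_of_mem_primeFactors hp).pos
      rw [Nat.cast_mul, Nat.cast_pow, Real.log_mul (by positivity) (hden _).ne', Real.log_pow]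
      push_cast
      ring
    · intro p hp
      have hp0 : (0 : ℝ) < p := by exact_mod_cast (Nat.prime_of_mem_primeFactors hp).pos
      have := hden (n / p)
      push_cast
      positivity
  have hsum1 : ∑ p ∈ n.primeFactors, (2 * Real.log p + Real.log (xc (((n / p : ℕ) : ℤ) • P0)).den) ≤
      ∑ p ∈ n.primeFactors, (2 * Real.log p + (κ * ((n / p : ℕ) : ℝ) ^ 2 + C)) := by
    refine Finset.sum_le_sum (fun p hp => ?_)
    have hpn := Nat.dvd_of_mem_primeFactors hp
    have hnp0 : 0 < n / p := Nat.div_pos (Nat.le_of_dvd hn0 hpn)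
      (Nat.prime_of_mem_primeFactors hp).pos
    have := hup (n / p) hnp0
    linarith
  have hsum2 : ∑ p ∈ n.primeFactors, (2 * Real.log p + (κ * ((n / p : ℕ) : ℝ) ^ 2 + C)) =
      2 * ∑ p ∈ n.primeFactors, Real.log p + κ * ∑ p ∈ n.primeFactors, ((n / p : ℕ) : ℝ) ^ 2 +
        n.primeFactors.card * C := by
    rw [Finset.mul_sum, Finset.mul_sum, ← Finset.sum_add_distrib]
    have : (n.primeFactors.card : ℝ) * C = ∑ p ∈ n.primeFactors, C := by
      rw [Finset.sum_const, nsmul_eq_mul]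
    rw [this, ← Finset.sum_add_distrib]
    refine Finset.sum_congr rfl (fun p _ => by ring)
  have hn1 : (1 : ℝ) ≤ n := by exact_mod_cast hn0
  have hlogp : ∑ p ∈ n.primeFactors, Real.log p ≤ n := by
    have h1 : ∑ p ∈ n.primeFactors, Real.log p = Real.log ((∏ p ∈ n.primeFactors, p : ℕ) : ℝ) := by
      rw [Nat.cast_prod, Real.log_prod]
      intro p hp
      exact_mod_cast (Nat.prime_of_mem_primeFactors hp).ne_zero
    rw [h1]
    have h2 : ∏ p ∈ n.primeFactors, p ≤ n := Nat.le_of_dvd hn0 (Nat.prod_primeFactors_dvd n)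
    have h3 : 0 < ∏ p ∈ n.primeFactors, p :=
      Finset.prod_pos (fun p hp => (Nat.prime_of_mem_primeFactors hp).pos)
    have h4 := Real.log_le_sub_one_of_pos (show (0 : ℝ) < ((∏ p ∈ n.primeFactors, p : ℕ) : ℝ) by
      exact_mod_cast h3)
    have h5 : ((∏ p ∈ n.primeFactors, p : ℕ) : ℝ) ≤ n := by exact_mod_cast h2
    linarith
  have hcard : (n.primeFactors.card : ℝ) ≤ n := by
    have h1 : n.primeFactors.card ≤ n := by
      have h2 : n.primeFactors ⊆ Finset.Icc 1 n := by
        intro p hp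
        rw [Finset.mem_Icc]
        exact ⟨(Nat.prime_of_mem_primeFactors hp).pos,
          Nat.le_of_dvd hn0 (Nat.dvd_of_mem_primeFactors hp)⟩
      have h3 := Finset.card_le_card h2
      rw [Nat.card_Icc] at h3
      omega
    exact_mod_cast h1
  have hsq := sum_inv_sq n hn hn0
  have hfin : κ * (n : ℝ) ^ 2 - C - 10 ≤ 2 * n + κ * ((n : ℝ) ^ 2 / 4) + n * C := by
    have h1 : κ * ∑ p ∈ n.primeFactors, ((n / p : ℕ) : ℝ) ^ 2 ≤ κ * ((n : ℝ) ^ 2 / 4) :=
      mul_le_mul_of_nonneg_left hsq hκ.le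
    have h2 : (n.primeFactors.card : ℝ) * C ≤ n * C := mul_le_mul_of_nonneg_right hcard hC0
    linarith
  have hNn : (N0 : ℝ) < n := by exact_mod_cast hN
  have h7 : 4 * (2 * C + 20) < κ * n := by
    rw [div_lt_iff₀ hκ] at hN0
    nlinarith
  have h8 : 4 * (2 * C + 20) * n < κ * (n : ℝ) ^ 2 := by
    have := mul_lt_mul_of_pos_right h7 (by linarith : (0 : ℝ) < n)
    calc _ < κ * n * n := this
      _ = _ := by ring
  nlinarith

end Vale.Agent.P027.Q
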